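import Vale.Agent.P257.H163.Ext

/-!
# P257: the attaching map and the inclusion for `W ⊗ (1 ⊕ L ⊕ … ⊕ L^{p-1})` over `ℂP`

* `covG : Fib ⊗ S(ℂ^κ) ⟶ E_κ`, `(w, x) ↦ (line x, ∑ w_j ⊗ f_j(x))`;
* `incG e : E_κ ⟶ E_κ'` for `e : κ ⊕ Unit ≃ κ'`.
-/

open Matrix Filter Topology CategoryTheory MonoidalCategory OnePoint
open Vale.Agent.P251.G Vale.Agent.P251.G.LC Vale.Agent.P257.H104

noncomputable section

set_option linter.unusedSectionVars false

namespace Vale.Agent.P257.H163

variable {κ κ' : Type} [Fintype κ] [Fintype κ'] (e : κ ⊕ Unit ≃ κ')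
variable {p : ℕ} (hp : p ≠ 0) {W : Type} [Fintype W] [DecidableEq W]

section alg

variable {ι μ ν J : Type} [Fintype ι] [Fintype μ] [Fintype ν] [Fintype J]

theorem amp_mul (A : Matrix ν μ ℂ) (B : Matrix μ ι ℂ) :
    amp W (A * B) = amp W A * amp W B := by
  unfold amp
  have h := Matrix.mul_kronecker_mul (1 : Matrix W W ℂ) (1 : Matrix W W ℂ) A B
  rw [Matrix.one_mul] at h
  exact h

theorem amp_mulVec_powVec (A : Matrix ν μ ℂ) (Φ : Matrix μ J ℂ)
    (w : J → W → ℂ) : amp W A *ᵥ powVec Φ w = powVec (A * Φ) w := by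
  rw [← amp_mulVec, ← amp_mulVec, mulVec_mulVec, amp_mul]

theorem powVec_injective [DecidableEq J] {Φ : Matrix μ J ℂ} (h : Φᴴ * Φ = 1)
    {w w' : J → W → ℂ} (hw : powVec Φ w = powVec Φ w') : w = w' := by
  have := congrArg (coordVec Φ) hw
  rwa [coordVec_powVec h, coordVec_powVec h] at this

end alg

/-- the projection of the bundle over the lens space is the one over the projective space -/
theorem lens_ρW_P (y : Lens p κ) :
    ((lensFrames p hp κ).ρW W).P y = (vGr p κ W).P y.Q := by
  rw [Frames.ρW_P, lensFrames_ρ]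
  rfl

include hp in
theorem vGr_P_powVec (x : SS κ) (w : Fin p → W → ℂ) :
    (vGr p κ W).P x.line *ᵥ powVec (frameΦ p x.v) w = powVec (frameΦ p x.v) w := by
  have h := (lensFrames p hp κ).ρW_powVec (W := W) x w
  rw [lens_ρW_P hp] at h
  exact h

include hp in
theorem vGr_P_line (x : SS κ) (y : W × RhoIdx p κ → ℂ) :
    powVec (frameΦ p x.v) (coordVec (frameΦ p x.v) y) = (vGr p κ W).P x.line *ᵥ y := by
  rw [powVec_coordVec]
  have h1 := lens_ρW_P (W := W) hp (x.lens p)
  rw [Frames.ρW_P] at h1
  have h2 := (lensFrames p hp κ).ρ_P_π x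
  have h3 : (vGr p κ W).P x.line = kroneckerMap (· * ·) (1 : Matrix W W ℂ)
      (frameΦ p x.v * (frameΦ p x.v)ᴴ) := by
    have h4 : frameΦ p x.v * (frameΦ p x.v)ᴴ =
      (lensFrames p hp κ).ρ.P ((lensFrames p hp κ).π x) := h2.symm
    rw [h4]
    exact h1.symm
  rw [h3]

/-- the point `(line x, ∑ w_j ⊗ f_j(x))` -/
def qG (a : (Fin p → W → ℂ) × SS κ) : (vGr p κ W).E :=
  (vGr p κ W).mkE a.2.line (powVec (frameΦ p a.2.v) a.1) (vGr_P_powVec hp a.2 a.1)

@[simp] theorem base_qG (a : (Fin p → W → ℂ) × SS κ) : Bun.base (qG hp a) = a.2.line := rfl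
@[simp] theorem vec_qG (a : (Fin p → W → ℂ) × SS κ) :
    Bun.vec (qG hp a) = powVec (frameΦ p a.2.v) a.1 := rfl

/-- every point over `line x` is of the form `qG (w, x)` -/
theorem exists_qG (P : (vGr p κ W).E) (x : SS κ) (h : x.line = Bun.base P) :
    ∃ w, qG hp (w, x) = P := by
  refine ⟨coordVec (frameΦ p x.v) (Bun.vec P), Bun.E_ext h ?_⟩
  rw [vec_qG, vGr_P_line hp, h]
  exact Bun.P_vec P

theorem surjective_qG : Function.Surjective (qG hp : (Fin p → W → ℂ) × SS κ → (vGr p κ W).E) := by
  intro P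
  obtain ⟨x, hx⟩ := SS.line_surjective (Bun.base P)
  obtain ⟨w, hw⟩ := exists_qG hp P x hx
  exact ⟨(w, x), hw⟩

theorem continuous_qG : Continuous (qG hp : (Fin p → W → ℂ) × SS κ → (vGr p κ W).E) := by
  refine Bun.continuous_mkE (SS.continuous_line.comp continuous_snd) ?_ _
  exact continuous_powVec ((continuous_frameΦ p).comp (SS.continuous_v.comp continuous_snd))
    continuous_fst

theorem isProperMap_qG : IsProperMap (qG hp : (Fin p → W → ℂ) × SS κ → (vGr p κ W).E) := by
  let c : (Fin p → W → ℂ) × SS κ → SS κ × (W × RhoIdx p κ → ℂ) := fun a =>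
    (a.2, powVec (frameΦ p a.2.v) a.1)
  let d : SS κ × (W × RhoIdx p κ → ℂ) → (Fin p → W → ℂ) × SS κ := fun a =>
    (coordVec (frameΦ p a.1.v) a.2, a.1)
  have hc : Continuous c := continuous_snd.prodMk
    (continuous_powVec ((continuous_frameΦ p).comp (SS.continuous_v.comp continuous_snd))
      continuous_fst)
  have hd : Continuous d :=
    (continuous_coordVec ((continuous_frameΦ p).comp (SS.continuous_v.comp continuous_fst))
      continuous_snd).prodMk continuous_fst
  have hdc : Function.LeftInverse d c := fun a => by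
    simp only [c, d, coordVec_powVec (frameΦ_isom hp a.2.nsq_v)]
  have h1 : IsProperMap c := (hdc.isClosedEmbedding hd hc).isProperMap
  have h2 : IsProperMap (Prod.map SS.line (id : (W × RhoIdx p κ → ℂ) → _)) :=
    (SS.continuous_line (κ := κ)).isProperMap.prodMap isProperMap_id
  have h3 : IsProperMap ((Subtype.val : (vGr p κ W).E → Gr 1 κ × (W × RhoIdx p κ → ℂ)) ∘
    qG hp) := h2.comp h1
  exact isProperMap_of_comp_of_inj (continuous_qG hp) continuous_subtype_val h3
    Subtype.val_injective

/-- the attaching map, with the fibre on the left -/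
def covG (κ : Type) [Fintype κ] (W : Type) [Fintype W] [DecidableEq W] :
    Fib (Fin p) W ⊗ LC.of (SS κ) ⟶ (vGr p κ W).tot :=
  LC.ofIsProper (X := LC.of ((Fin p → W → ℂ) × SS κ)) (Y := (vGr p κ W).tot) (qG hp)
    (isProperMap_qG hp)

theorem app_covG_coe (w : Fin p → W → ℂ) (x : SS κ) :
    app (covG hp κ W) (OnePoint.some (w, x)) = OnePoint.some (qG hp (w, x)) := rfl

/-- the covering of the lens space followed by the projection to the projective space -/
theorem covR_eToGr (n : ℕ) : covR (LF p hp n) W ≫ (eToGr p hp W n).thom = covG hp (Fin n) W := by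
  apply hom_ext
  rintro ⟨w, x⟩
  change OnePoint.some ((eToGr p hp W n).toFun ((LF p hp n).q (x, w))) =
    OnePoint.some (qG hp (w, x))
  congr 1
  refine Bun.E_ext rfl ?_
  rw [vec_eToGr]
  rfl

theorem fibGr_eq (n : ℕ) (x : (LF p hp n).S) : fibGr p hp W x =
    (ρ_ (Fib (Fin p) W)).inv ≫ (Fib (Fin p) W ◁ point (X := LC.of (SS (Fin n))) x) ≫
      covG hp (Fin n) W := by
  rw [fibGr, fib_eq_covR, ← covR_eToGr, Category.assoc, Category.assoc]
  rfl

/-! ### the inclusion -/

variable [DecidableEq κ']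

/-- a unit vector of `ℂ^κ` as a unit vector of `ℂ^κ'` -/
def incS (x : SS κ) : SS κ' := ⟨ext e x.v 0, by rw [nsq_ext, x.nsq_v]; simp⟩

omit [DecidableEq κ'] in
@[simp] theorem incS_v (x : SS κ) : (incS e x).v = ext e x.v 0 := rfl

omit [DecidableEq κ'] in
theorem continuous_incS : Continuous (incS e) :=
  ((continuous_ext e).comp (SS.continuous_v.prodMk continuous_const)).subtype_mk _

/-- the inclusion of projective spaces -/
def incL [DecidableEq κ] : C(Gr 1 κ, Gr 1 κ') where
  toFun Q := ⟨incV e * Q.P * (incV e)ᴴ, Q.isProj.conj (by rw [incV_isom, Matrix.one_mul])⟩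
  continuous_toFun := by
    refine Continuous.subtype_mk ?_ _
    exact (continuous_const.matrix_mul Gr.continuous_P).matrix_mul continuous_const

theorem incL_line [DecidableEq κ] (x : SS κ) : incL e x.line = (incS e x).line := by
  apply Gr.ext
  change incV e * lineP x.v * (incV e)ᴴ = lineP (incS e x).v
  rw [incS_v, ← incV_mulVec]
  unfold lineP
  rw [Matrix.mul_vecMulVec, Matrix.vecMulVec_mul, star_mulVec]

theorem amp_incR_powVec (x : SS κ) (w : Fin p → W → ℂ) :
    amp W (incR e p) *ᵥ powVec (frameΦ p x.v) w = powVec (frameΦ p (incS e x).v) w := by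
  rw [amp_mulVec_powVec, incR_mul_frameΦ, incS_v]

/-- the inclusion of bundles -/
def incB [DecidableEq κ] (W : Type) [Fintype W] [DecidableEq W] :
    BMap (vGr p κ W) (vGr p κ' W) where
  f := incL e
  A _ := amp W (incR e p)
  contA := continuous_const
  maps Q v hv := by
    obtain ⟨x, rfl⟩ := SS.line_surjective Q
    have h1 := vGr_P_line hp (W := W) x v
    rw [hv] at h1
    rw [← h1, amp_incR_powVec, incL_line]
    exact vGr_P_powVec hp _ _
  inj Q v _ h := by
    have h1 := congrArg (fun u => (amp W (incR e p))ᴴ *ᵥ u) h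
    simp only [mulVec_mulVec, mulVec_zero] at h1
    rw [amp_conjTranspose_mul_amp (incR_isom e p), one_mulVec] at h1
    exact h1

/-- the inclusion of total spaces -/
def incG [DecidableEq κ] (W : Type) [Fintype W] [DecidableEq W] :
    (vGr p κ W).tot ⟶ (vGr p κ' W).tot := (incB e hp W).thom

theorem incB_qG [DecidableEq κ] (w : Fin p → W → ℂ) (x : SS κ) :
    (incB e hp W).toFun (qG hp (w, x)) = qG hp (w, incS e x) := by
  refine Bun.E_ext ?_ ?_
  · rw [BMap.base_toFun, base_qG, base_qG]
    exact incL_line e x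
  · rw [BMap.vec_toFun, vec_qG, vec_qG]
    exact amp_incR_powVec e x w

theorem app_incG_coe [DecidableEq κ] (P : (vGr p κ W).E) :
    app (incG e hp W) (OnePoint.some P) = OnePoint.some ((incB e hp W).toFun P) := rfl

omit [DecidableEq κ'] in
theorem incS_line_injective {x y : SS κ} (h : (incS e x).line = (incS e y).line) :
    x.line = y.line := by
  rw [SS.line_eq_iff] at h ⊢
  obtain ⟨c, hc, hy⟩ := h
  refine ⟨c, hc, ?_⟩
  rw [incS_v, incS_v, ← ext_smul, mul_zero] at hy
  exact (ext_inj e hy).1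

theorem injective_incB [DecidableEq κ] : Function.Injective (incB e hp W (κ := κ)).toFun := by
  intro P P' h
  obtain ⟨⟨w, x⟩, rfl⟩ := surjective_qG hp P
  obtain ⟨⟨w', x'⟩, rfl⟩ := surjective_qG hp P'
  have h1 : (incS e x).line = (incS e x').line := by
    have := congrArg Bun.base h
    rw [incB_qG, incB_qG] at this
    exact this
  refine Bun.E_ext (incS_line_injective e h1) ?_
  have h2 := congrArg (fun P => (amp W (incR e p))ᴴ *ᵥ Bun.vec P) h
  simp only [BMap.vec_toFun, mulVec_mulVec] at h2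
  have h3 : (incB e hp W (κ := κ)).A = fun _ => amp W (incR e p) := rfl
  simp only [h3, amp_conjTranspose_mul_amp (incR_isom e p), one_mulVec] at h2
  exact h2

theorem injective_incG [DecidableEq κ] : Function.Injective (app (incG e hp W (κ := κ))) := by
  intro a b h
  induction a using OnePoint.rec with
  | infty =>
    induction b using OnePoint.rec with
    | infty => rfl
    | coe y =>
      rw [app_infty] at h
      exact absurd h (OnePoint.infty_ne_coe _)
  | coe a =>
    induction b using OnePoint.rec with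
    | infty =>
      rw [app_infty] at h
      exact absurd h (OnePoint.coe_ne_infty _)
    | coe b =>
      rw [app_incG_coe, app_incG_coe] at h
      exact congrArg _ (injective_incB e hp (OnePoint.coe_injective h))

end Vale.Agent.P257.H163
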