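import Vale.Agent.P257.H163.CovG
import Vale.Agent.P251.G.CofibEx
import Vale.Agent.P251.G.LensMaps
import Vale.Agent.P251.G.GrSph

/-!
# P257: the closed unit ball of `ℂ^κ`

`DD κ`, the cofibration `sphD : SS κ ⟶ DD κ`, the upper hemisphere `hemi e : DD κ → SS κ'`.
-/

open Matrix Filter Topology CategoryTheory MonoidalCategory OnePoint
open Vale.Agent.P251.G Vale.Agent.P251.G.LC Vale.Agent.P257.H104

noncomputable section

set_option linter.unusedSectionVars false

namespace Vale.Agent.P257.H163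

variable {κ κ' : Type} [Fintype κ] [Fintype κ'] (e : κ ⊕ Unit ≃ κ')

/-- the closed unit ball -/
def DD (κ : Type) [Fintype κ] : Type := {z : κ → ℂ // nsq z ≤ 1}

instance : TopologicalSpace (DD κ) := inferInstanceAs (TopologicalSpace (Subtype _))
instance : T2Space (DD κ) := inferInstanceAs (T2Space (Subtype _))
instance : CompactSpace (DD κ) := isCompact_iff_compactSpace.mp (isCompact_nsq_le 1)

/-- the underlying vector -/
def DD.v (z : DD κ) : κ → ℂ := z.1

theorem DD.nsq_v (z : DD κ) : nsq z.v ≤ 1 := z.2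

theorem DD.ext {x y : DD κ} (h : x.v = y.v) : x = y := Subtype.ext h

theorem DD.continuous_v : Continuous (DD.v : DD κ → κ → ℂ) := continuous_subtype_val

theorem nsq_le_iff {z : κ → ℂ} : nsq z ≤ 1 ↔ nrm z ≤ 1 := by
  rw [← nrm_sq, sq_le_one_iff₀ (nrm_nonneg z)]

theorem nsq_eq_iff {z : κ → ℂ} : nsq z = 1 ↔ nrm z = 1 := by
  rw [nrm_eq_iff zero_le_one, one_pow]

/-- The unit sphere in the closed unit ball. -/
theorem pndr_DD : PNDR (LC.of (DD κ)) {x : DD κ | nsq x.v = 1} := by
  have hle : ∀ x : DD κ, nrm x.v ≤ 1 := fun x => nsq_le_iff.1 x.2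
  have hcn : Continuous fun x : DD κ => nrm x.v := continuous_nrm.comp DD.continuous_v
  let u : DD κ → unitInterval := fun x => Set.projIcc 0 1 zero_le_one (2 * (1 - nrm x.v))
  have hu : Continuous u := continuous_projIcc.comp (continuous_const.mul
    (continuous_const.sub hcn))
  let m : DD κ × unitInterval → ℝ := fun p => max (nrm p.1.v) (1 - p.2.1 / 2)
  have hm : Continuous m := (hcn.comp continuous_fst).max (continuous_const.sub
      ((continuous_subtype_val.comp continuous_snd).div_const 2))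
  have hmpos : ∀ p, 0 < m p := fun p =>
    lt_of_lt_of_le (by linarith [p.2.2.2] : (0 : ℝ) < 1 - p.2.1 / 2) (le_max_right _ _)
  have hnorm : ∀ p, ‖((m p : ℝ) : ℂ)⁻¹‖ = (m p)⁻¹ := fun p => by
    rw [norm_inv, Complex.norm_real, Real.norm_of_nonneg (hmpos p).le]
  let h : DD κ × unitInterval → DD κ := fun p =>
    ⟨((m p : ℝ) : ℂ)⁻¹ • p.1.v, by
      rw [nsq_le_iff, nrm_smul, hnorm, inv_mul_le_iff₀ (hmpos p), mul_one]
      exact le_max_left _ _⟩
  have hc : Continuous h := by
    apply Continuous.subtype_mk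
    exact ((Complex.continuous_ofReal.comp hm).inv₀
      (fun p => Complex.ofReal_ne_zero.2 (hmpos p).ne')).smul (DD.continuous_v.comp continuous_fst)
  refine pndr_of_compact (D := LC.of (DD κ)) u hu h hc ?_ ?_ ?_ ?_
  · intro x
    change Set.projIcc 0 1 zero_le_one (2 * (1 - nrm (x : DD κ).v)) = 0 ↔ nsq (x : DD κ).v = 1
    refine (Set.projIcc_eq_left (zero_lt_one (α := ℝ))).trans ?_
    rw [nsq_eq_iff]
    have := hle x
    constructor
    · intro h; linarith
    · intro h; linarith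
  · intro x
    apply DD.ext
    change ((m (x, 0) : ℝ) : ℂ)⁻¹ • (x : DD κ).v = _
    have h1 : m (x, 0) = 1 := by
      change max _ (1 - (0 : ℝ) / 2) = 1
      rw [zero_div, sub_zero, max_eq_right (hle x)]
    rw [h1, Complex.ofReal_one, inv_one, one_smul]
  · intro x hx t
    apply DD.ext
    have hx' : nrm (x : DD κ).v = 1 := nsq_eq_iff.1 hx
    change ((m (x, t) : ℝ) : ℂ)⁻¹ • (x : DD κ).v = _
    have h1 : m (x, t) = 1 := by
      change max (nrm (x : DD κ).v) (1 - t.1 / 2) = 1
      rw [hx', max_eq_left (by linarith [t.2.1])]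
    rw [h1, Complex.ofReal_one, inv_one, one_smul]
  · intro x t hxt
    change nsq (((m (x, t) : ℝ) : ℂ)⁻¹ • (x : DD κ).v) = 1
    have hlt : ((Set.projIcc 0 1 zero_le_one (2 * (1 - nrm (x : DD κ).v)) : unitInterval) : ℝ) <
      t.1 := hxt
    have h1 : 2 * (1 - nrm (x : DD κ).v) < t.1 := by
      rw [Set.coe_projIcc] at hlt
      by_contra hcon
      push Not at hcon
      have h3 := lt_of_le_of_lt (le_max_right (0 : ℝ)
        (min 1 (2 * (1 - nrm (x : DD κ).v)))) hlt
      have h2 := le_min t.2.2 hcon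
      linarith
    have h2 : m (x, t) = nrm (x : DD κ).v := max_eq_left (by linarith)
    have h3 := hmpos (x, t)
    rw [nsq_eq_iff, nrm_smul, hnorm, ← h2, inv_mul_cancel₀ h3.ne']

/-- the inclusion of the sphere in the ball -/
def sphDFun (x : SS κ) : DD κ := ⟨x.v, x.nsq_v.le⟩

theorem continuous_sphDFun : Continuous (sphDFun : SS κ → DD κ) :=
  SS.continuous_v.subtype_mk _

theorem isClosedEmbedding_sphDFun : IsClosedEmbedding (sphDFun : SS κ → DD κ) :=
  continuous_sphDFun.isClosedEmbedding fun _ _ h => SS.ext (congrArg DD.v h)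

/-- the inclusion of the sphere in the ball -/
def sphD (κ : Type) [Fintype κ] : LC.of (SS κ) ⟶ LC.of (DD κ) :=
  ofClosed (X := LC.of (SS κ)) (Y := LC.of (DD κ)) sphDFun isClosedEmbedding_sphDFun

theorem range_sphDFun : Set.range (sphDFun : SS κ → DD κ) = {x : DD κ | nsq x.v = 1} := by
  ext z
  constructor
  · rintro ⟨x, rfl⟩; exact x.nsq_v
  · intro h; exact ⟨⟨z.v, h⟩, rfl⟩

theorem injective_sphD : Function.Injective (app (sphD κ)) :=
  injective_app_ofClosed (Z := LC.of (SS κ)) (Y := LC.of (DD κ)) _ _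

theorem cofib_sphD : Cofib (sphD κ) :=
  cofib_ofClosed (C := LC.of (SS κ)) (D := LC.of (DD κ)) _ isClosedEmbedding_sphDFun (by
    rw [range_sphDFun]
    exact pndr_DD)

/-- the last coordinate of the point of the upper hemisphere -/
def hgt (z : κ → ℂ) : ℝ := Real.sqrt (1 - nsq z)

theorem continuous_hgt : Continuous (hgt : (κ → ℂ) → ℝ) :=
  Real.continuous_sqrt.comp (continuous_const.sub continuous_nsq)

theorem hgt_sq {z : κ → ℂ} (h : nsq z ≤ 1) : hgt z ^ 2 = 1 - nsq z :=
  Real.sq_sqrt (sub_nonneg.2 h)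

theorem hgt_nonneg (z : κ → ℂ) : 0 ≤ hgt z := Real.sqrt_nonneg _

theorem hgt_pos {z : κ → ℂ} (h : nsq z < 1) : 0 < hgt z := Real.sqrt_pos.2 (sub_pos.2 h)

theorem hgt_sph (x : SS κ) : hgt x.v = 0 := by
  rw [hgt, x.nsq_v, sub_self, Real.sqrt_zero]

/-- the upper hemisphere -/
def hemiFun (z : DD κ) : SS κ' := ⟨ext e z.v (hgt z.v), by
  rw [nsq_ext, Complex.normSq_ofReal, ← sq, hgt_sq z.nsq_v, add_sub_cancel]⟩

@[simp] theorem hemiFun_v (z : DD κ) : (hemiFun e z).v = ext e z.v (hgt z.v) := rfl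

theorem continuous_hemiFun : Continuous (hemiFun e) := by
  refine Continuous.subtype_mk ((continuous_ext e).comp (DD.continuous_v.prodMk ?_)) _
  exact Complex.continuous_ofReal.comp (continuous_hgt.comp DD.continuous_v)

theorem hemiFun_sphD (x : SS κ) : hemiFun e (sphDFun x) = incS e x := by
  apply SS.ext
  rw [hemiFun_v, incS_v]
  change ext e x.v (hgt x.v) = _
  rw [hgt_sph, Complex.ofReal_zero]

/-- the upper hemisphere -/
def hemi : LC.of (DD κ) ⟶ LC.of (SS κ') :=
  ofCompact (X := LC.of (DD κ)) (Y := LC.of (SS κ')) (hemiFun e) (continuous_hemiFun e)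

/-- the ball is contractible -/
theorem hequiv_DD : HEquiv (LC.of (DD κ)) (𝟙_ LC) := by
  let f : LC.of (DD κ) ⟶ 𝟙_ LC := ofCompact (X := LC.of (DD κ)) (Y := 𝟙_ LC)
    (fun _ => PUnit.unit) continuous_const
  let g : 𝟙_ LC ⟶ LC.of (DD κ) := point (X := LC.of (DD κ)) ⟨0, by rw [nsq_zero]; exact zero_le_one⟩
  have h1 : g ≫ f = 𝟙 _ := by
    apply hom_ext
    intro x
    rfl
  refine ⟨f, g, ?_, ?_⟩
  · have h2 : f ≫ g = ofCompact (X := LC.of (DD κ)) (Y := LC.of (DD κ))
        (fun _ => ⟨0, by rw [nsq_zero]; exact zero_le_one⟩) continuous_const := by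
      apply hom_ext
      intro x
      rfl
    have h3 : 𝟙 (LC.of (DD κ)) = ofCompact (X := LC.of (DD κ)) (Y := LC.of (DD κ))
        (fun x => x) continuous_id := by
      apply hom_ext
      intro x
      rfl
    rw [h2, h3]
    refine homotopic_ofCompact (X := LC.of (DD κ)) (Y := LC.of (DD κ)) _ _
      (fun q : DD κ × unitInterval => ⟨((q.2 : ℝ) : ℂ) • q.1.v, ?_⟩) ?_ ?_ ?_
    · rw [nsq_smul, Complex.normSq_ofReal, ← sq]
      have h4 := q.1.nsq_v
      have h5 := nsq_nonneg q.1.v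
      have h6 : (q.2 : ℝ) ^ 2 ≤ 1 := pow_le_one₀ q.2.2.1 q.2.2.2
      nlinarith [sq_nonneg (q.2 : ℝ)]
    · refine Continuous.subtype_mk ?_ _
      exact (Complex.continuous_ofReal.comp (continuous_subtype_val.comp continuous_snd)).smul
        (DD.continuous_v.comp continuous_fst)
    · intro x
      apply DD.ext
      change (((0 : unitInterval) : ℝ) : ℂ) • DD.v x = 0
      simp
    · intro x
      apply DD.ext
      change (((1 : unitInterval) : ℝ) : ℂ) • DD.v x = DD.v x
      simp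
  · rw [h1]
    exact Homotopic.refl _

theorem fc_DD : FC (LC.of (DD κ)) := FC.unit.hequiv hequiv_DD.symm

end Vale.Agent.P257.H163
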