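import Vale.Agent.P257.H104.GrCell
import Vale.Agent.P251.G.ThMap

/-!
# P257: the extension `ℂ^κ → ℂ^κ'` by one coordinate and the frames of `1 ⊕ L ⊕ … ⊕ L^{p-1}`

For `e : κ ⊕ Unit ≃ κ'`: `ext e z c : κ' → ℂ`, `incR e p : Matrix (RhoIdx p κ') (RhoIdx p κ) ℂ` with
`frameΦ p (ext e z 0) = incR e p * frameΦ p z`.
-/

open Matrix Filter Topology CategoryTheory
open Vale.Agent.P251.G Vale.Agent.P257.H104

noncomputable section

namespace Vale.Agent.P257.H163

variable {κ κ' : Type} [Fintype κ] [Fintype κ'] (e : κ ⊕ Unit ≃ κ')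

/-- extension of a vector by one coordinate -/
def ext (z : κ → ℂ) (c : ℂ) : κ' → ℂ := fun a => Sum.elim z (fun _ => c) (e.symm a)

omit [Fintype κ] [Fintype κ'] in
@[simp] theorem ext_inl (z : κ → ℂ) (c : ℂ) (a : κ) : ext e z c (e (Sum.inl a)) = z a := by
  simp [ext]

omit [Fintype κ] [Fintype κ'] in
@[simp] theorem ext_inr (z : κ → ℂ) (c : ℂ) (a : Unit) : ext e z c (e (Sum.inr a)) = c := by
  simp [ext]

theorem nsq_ext (z : κ → ℂ) (c : ℂ) : nsq (ext e z c) = nsq z + Complex.normSq c := by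
  have h : ext e z c = (Sum.elim z fun _ : Unit => c) ∘ e.symm := rfl
  rw [h, nsq_comp_equiv e.symm (Sum.elim z fun _ : Unit => c), nsq_elim]
  simp [nsq]

omit [Fintype κ] [Fintype κ'] in
theorem ext_smul (z : κ → ℂ) (c a : ℂ) : ext e (a • z) (a * c) = a • ext e z c := by
  funext i
  obtain ⟨i, rfl⟩ := e.surjective i
  rcases i with i | i <;> simp

omit [Fintype κ] [Fintype κ'] in
theorem ext_inj {z z' : κ → ℂ} {c c' : ℂ} (h : ext e z c = ext e z' c') : z = z' ∧ c = c' := by
  constructor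
  · funext i
    have := congrFun h (e (Sum.inl i))
    simpa using this
  · have := congrFun h (e (Sum.inr ()))
    simpa using this

omit [Fintype κ] [Fintype κ'] in
theorem exists_ext (x : κ' → ℂ) : ∃ z c, x = ext e z c := by
  refine ⟨fun i => x (e (Sum.inl i)), x (e (Sum.inr ())), ?_⟩
  funext i
  obtain ⟨i, rfl⟩ := e.surjective i
  rcases i with i | i <;> simp

omit [Fintype κ] [Fintype κ'] in
theorem continuous_ext : Continuous fun q : (κ → ℂ) × ℂ => ext e q.1 q.2 := by
  refine continuous_pi fun i => ?_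
  obtain ⟨i, rfl⟩ := e.surjective i
  rcases i with i | i
  · simp only [ext_inl]; fun_prop
  · simp only [ext_inr]; fun_prop

variable [DecidableEq κ']

/-- the matrix of `z ↦ ext e z 0` -/
def incV : Matrix κ' κ ℂ := injMat fun a : κ => e (Sum.inl a)

theorem incV_isom [DecidableEq κ] : (incV e)ᴴ * incV e = 1 :=
  injMat_isom (e.injective.comp Sum.inl_injective)

theorem incV_mulVec (z : κ → ℂ) : incV e *ᵥ z = ext e z 0 := by
  classical
  funext i
  obtain ⟨i, rfl⟩ := e.surjective i
  rcases i with i | i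
  · rw [ext_inl]
    exact injMat_mulVec (fun a : κ => e (Sum.inl a)) (e.injective.comp Sum.inl_injective) z i
  · rw [ext_inr]
    refine injMat_mulVec_of_notMem (fun a : κ => e (Sum.inl a)) z _ ?_
    rintro ⟨a, ha⟩
    exact absurd (e.injective ha) (by simp)

/-- the induced embedding of the fibres of `1 ⊕ L ⊕ … ⊕ L^{p-1}` -/
def incR (p : ℕ) : Matrix (RhoIdx p κ') (RhoIdx p κ) ℂ :=
  fromBlocks 1 0 0 (blockDiagonal' fun i : Fin (p - 1) => tpow ((i : ℕ) + 1) (incV e))

theorem incR_isom [DecidableEq κ] (p : ℕ) : (incR e p)ᴴ * incR e p = 1 := by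
  unfold incR
  rw [fromBlocks_conjTranspose, fromBlocks_multiply, blockDiagonal'_conjTranspose,
    ← blockDiagonal'_mul]
  simp only [tpow_conjTranspose, ← tpow_mul, incV_isom, tpow_one, conjTranspose_one,
    conjTranspose_zero, Matrix.mul_zero, Matrix.zero_mul, Matrix.mul_one, add_zero, zero_add]
  have h : (blockDiagonal' fun i : Fin (p - 1) =>
      (1 : Matrix (Fin ((i : ℕ) + 1) → κ) (Fin ((i : ℕ) + 1) → κ) ℂ)) = 1 := blockDiagonal'_one
  rw [h, fromBlocks_one]

theorem incR_mul_frameΦ (p : ℕ) (z : κ → ℂ) :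
    incR e p * frameΦ p z = frameΦ p (ext e z 0) := by
  ext a j
  rcases a with a | ⟨i, t⟩
  · rw [Matrix.mul_apply, Fintype.sum_sum_type]
    simp [incR]
  · rw [frameΦ_inr, ← incV_mulVec, ← tpow_mulVec_tp, Matrix.mul_apply, Fintype.sum_sum_type,
      Fintype.sum_sigma]
    simp only [incR, fromBlocks_apply₂₁, Matrix.zero_apply, zero_mul, Finset.sum_const_zero,
      zero_add, fromBlocks_apply₂₂]
    rw [Finset.sum_eq_single i]
    · rw [Matrix.mulVec, dotProduct, Finset.mul_sum, Finset.mul_sum]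
      refine Finset.sum_congr rfl fun k _ => ?_
      rw [blockDiagonal'_apply_eq, frameΦ_inr]
      ring
    · intro i' _ hi'
      refine Finset.sum_eq_zero fun k _ => ?_
      rw [blockDiagonal'_apply_ne _ _ _ (Ne.symm hi'), zero_mul]
    · intro h
      exact absurd (Finset.mem_univ i) h

end Vale.Agent.P257.H163
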