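import Vale.Agent.P257.H163.Polar0

/-!
# P257: the extension criterion

`exists_ext_incG`: a map out of the suspension spectrum of `E_κ` extends to `E_κ'` if the composite
with the attaching map and the collapse of the origin vanishes.
-/

open Matrix Filter Topology CategoryTheory MonoidalCategory OnePoint Limits Pretriangulated
open Vale.Agent.P251 Vale.Agent.P251.G Vale.Agent.P251.G.LC Vale.Agent.P251.I
open Vale.Agent.P251.T Vale.Agent.P257.H104

universe v u

noncomputable section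

set_option linter.unusedSectionVars false

namespace Vale.Agent.P257.H163

section tri

variable {T : Type u} [Category.{v} T] [Preadditive T] [HasZeroObject T]
    [HasShift T ℤ] [∀ n : ℤ, (shiftFunctor T n).Additive] [Pretriangulated T]

/-- a map out of the first object of a distinguished triangle extends over the second one if its
shift vanishes on the third map -/
theorem exists_ext_of_mor₃ {X Y Z M : T} {f : X ⟶ Y} {g : Y ⟶ Z} {h : Z ⟶ X⟦(1 : ℤ)⟧}
    (hT : Triangle.mk f g h ∈ distTriang T) (a : X ⟶ M) (ha : h ≫ a⟦(1 : ℤ)⟧' = 0) :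
    ∃ b : Y ⟶ M, f ≫ b = a := by
  obtain ⟨k, hk⟩ : ∃ k : Y⟦(1 : ℤ)⟧ ⟶ M⟦(1 : ℤ)⟧, a⟦(1 : ℤ)⟧' = (-f⟦(1 : ℤ)⟧') ≫ k :=
    Triangle.yoneda_exact₃ _ (rot_of_distTriang _ hT) (a⟦(1 : ℤ)⟧') ha
  obtain ⟨k, rfl⟩ := (shiftFunctor T (1 : ℤ)).map_surjective k
  refine ⟨-k, ?_⟩
  apply (shiftFunctor T (1 : ℤ)).map_injective
  rw [hk, Preadditive.comp_neg, Functor.map_neg, Functor.map_comp, Preadditive.neg_comp]

end tri

section T

variable {T : Type u} [Category.{v} T] [Preadditive T] [HasZeroObject T]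
    [HasShift T ℤ] [∀ n : ℤ, (shiftFunctor T n).Additive] [Pretriangulated T]
    [MonoidalCategory T] [SymmetricCategory T] [TensorTriangulated T] (F : SpaceFunctor T)

/-- A suspension spectrum functor takes pushouts along cofibrations to weak pushouts. -/
theorem exists_ext_pushout {A B C D : FCat} {i : A ⟶ B} {f : A ⟶ C} {g : B ⟶ D} {j : C ⟶ D}
    (hi : Cofib i.hom) (h : IsPushout i.hom f.hom g.hom j.hom) {M : T} (b : F.S.obj B ⟶ M)
    (c : F.S.obj C ⟶ M) (w : F.S.map i ≫ b = F.S.map f ≫ c) :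
    ∃ m : F.S.obj D ⟶ M, F.S.map j ≫ m = c := by
  have hj : Cofib j.hom := Cofib.pushout hi h
  refine exists_ext_of_mor₃ (F.cof_distinguished j hj) c ?_
  let c' : cofF i hi ⟶ cofF j hj := FCat.hom (cofPushout h).hom
  have w' : i ≫ g = f ≫ j := by
    ext1
    exact h.w
  have h1 := F.cofδ_naturality i hi j hj f g w' c' (cofMap_cofPushout h)
  have h2 : IsIso (F.S.map c') := F.isIso_map c' (isHEquiv_of_iso (cofPushout h).hom)
  rw [← cancel_epi (F.S.map c'), reassoc_of% h1, comp_zero, ← Functor.map_comp, ← w,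
    Functor.map_comp, ← Category.assoc]
  have h3 : F.cofδ i hi ≫ (F.S.map i)⟦(1 : ℤ)⟧' = 0 :=
    comp_distTriang_mor_zero₃₁ _ (F.cof_distinguished i hi)
  rw [h3, zero_comp]

variable {κ κ' : Type} [Fintype κ] [Fintype κ'] [DecidableEq κ] [DecidableEq κ']
variable {p : ℕ} (hp : p ≠ 0) {W : Type} [Fintype W] [DecidableEq W]

/-- the fibre as a finite cell space -/
abbrev FibF (p : ℕ) (W : Type) [Fintype W] [DecidableEq W] : FCat :=
  ⟨Fib (Fin p) W, fc_fib W (Fin p)⟩

/-- the total space over the projective space as a finite cell space -/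
abbrev GF (p : ℕ) (κ W : Type) [Fintype κ] [Fintype W] [DecidableEq W] : FCat :=
  ⟨(vGr p κ W).tot, Cell.fc_tot _⟩

/-- the attaching map in `FCat` -/
abbrev covGF (κ W : Type) [Fintype κ] [Fintype W] [DecidableEq W] :
    FibF p W ⊗ SSF κ ⟶ GF p κ W := FCat.hom (covG hp κ W)

/-- the inclusion in `FCat` -/
abbrev incGF (e : κ ⊕ Unit ≃ κ') (W : Type) [Fintype W] [DecidableEq W] :
    GF p κ W ⟶ GF p κ' W := FCat.hom (incG e hp W)

/-- the ball as a finite cell space -/
abbrev DDF (κ : Type) [Fintype κ] : FCat := ⟨LC.of (DD κ), fc_DD⟩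

/-- the projection of the ball to the point -/
def ddToPt (κ : Type) [Fintype κ] : LC.of (DD κ) ⟶ LC.of Unit :=
  ofCompact (X := LC.of (DD κ)) (Y := LC.of Unit) (fun _ => ()) continuous_const

theorem sphD_ddToPt : sphD κ ≫ ddToPt κ = toPt κ := by
  apply hom_ext
  intro x
  rfl

/-- **The extension criterion.** -/
theorem exists_ext_incG (e : κ ⊕ Unit ≃ κ') {M : T} (th : F.S.obj (GF p κ W) ⟶ M)
    (h : F.S.map (connF (FibF p W)) ≫ (F.suspIso (FibF p W ⊗ SSF κ)).hom ≫
      (F.S.map (covGF hp κ W) ≫ th)⟦(1 : ℤ)⟧' = 0) :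
    ∃ th' : F.S.obj (GF p κ' W) ⟶ M, F.S.map (incGF hp e W) ≫ th' = th := by
  obtain ⟨t, ht⟩ := exists_ext_of_mor₃ (connF_distinguished (κ := κ) F (FibF p W))
    (F.S.map (covGF hp κ W) ≫ th) (by rw [Category.assoc]; exact h)
  let i : FibF p W ⊗ SSF κ ⟶ FibF p W ⊗ DDF κ := FCat.hom (Fib (Fin p) W ◁ sphD κ)
  let r : FibF p W ⊗ DDF κ ⟶ FibF p W ⊗ ptFC := FCat.hom (Fib (Fin p) W ◁ ddToPt κ)
  have hir : i ≫ r = FCat.hom (Fib (Fin p) W ◁ toPt κ) := by
    ext1
    change (Fib (Fin p) W ◁ sphD κ) ≫ (Fib (Fin p) W ◁ ddToPt κ) = Fib (Fin p) W ◁ toPt κ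
    rw [← whiskerLeft_comp, sphD_ddToPt]
  refine exists_ext_pushout F (i := i) (f := covGF hp κ W)
    (g := (FCat.hom (cellG e hp W) : FibF p W ⊗ DDF κ ⟶ GF p κ' W)) (j := incGF hp e W)
    cofib_sphDFib (isPushout_G e hp) (F.S.map r ≫ t) th ?_
  rw [← ht, ← Category.assoc, ← Functor.map_comp, hir]

end T

end Vale.Agent.P257.H163
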