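import Vale.Agent.P257.H163.Extend

/-!
# P257: the extension criterion, final forms

* `fibG hp x : Fib ⟶ E_κ` the fibre over the line of `x`, `fibG hp x ≫ incG = fibG hp (incS x)`;
* the case `κ = Fin n`, `κ' = Fin (n + 1)`;
* the case `W = Unit`, for the bundle `rhoGr p κ`.
-/

open Matrix Filter Topology CategoryTheory MonoidalCategory OnePoint Limits Pretriangulated
open Vale.Agent.P251 Vale.Agent.P251.G Vale.Agent.P251.G.LC Vale.Agent.P251.I
open Vale.Agent.P251.T Vale.Agent.P257.H104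

universe v u

noncomputable section

set_option linter.unusedSectionVars false

namespace Vale.Agent.P257.H163

variable {κ κ' : Type} [Fintype κ] [Fintype κ'] [DecidableEq κ] [DecidableEq κ']
variable {p : ℕ} (hp : p ≠ 0) {W : Type} [Fintype W] [DecidableEq W]

/-! ### The fibre -/

section fibre

variable (W) in
/-- the fibre over the line of `x` -/
def fibG (x : SS κ) : Fib (Fin p) W ⟶ (vGr p κ W).tot :=
  (ρ_ (Fib (Fin p) W)).inv ≫ (Fib (Fin p) W ◁ point (X := LC.of (SS κ)) x) ≫ covG hp κ W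

theorem app_fibG_coe (x : SS κ) (w : Fin p → W → ℂ) :
    app (fibG hp W x) (OnePoint.some w) = OnePoint.some (qG hp (w, x)) := rfl

theorem fibGr_eq_fibG (n : ℕ) (x : (LF p hp n).S) : fibGr p hp W x = fibG hp W x :=
  fibGr_eq hp n x

theorem fibG_incG (e : κ ⊕ Unit ≃ κ') (x : SS κ) :
    fibG hp W x ≫ incG e hp W = fibG hp W (incS e x) := by
  apply hom_ext
  intro w
  change OnePoint.some ((incB e hp W).toFun (qG hp (w, x))) = OnePoint.some (qG hp (w, incS e x))
  rw [incB_qG]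

end fibre

/-! ### The case of `Fin` -/

/-- `Fin n ⊕ Unit ≃ Fin (n + 1)` -/
def eFin (n : ℕ) : Fin n ⊕ Unit ≃ Fin (n + 1) :=
  (Equiv.sumCongr (Equiv.refl (Fin n)) (Equiv.ofUnique Unit (Fin 1))).trans finSumFinEquiv

/-! ### Tensoring with the trivial line -/

section unit

variable {X : Type} [TopologicalSpace X] {ι : Type} [Fintype ι]

theorem unitTensor_fixed (V : Bun X ι) (x : X) (v : Unit × ι → ℂ) :
    ((Bun.triv X Unit).tensor V).P x *ᵥ v = v ↔
      V.P x *ᵥ (fun c => v ((), c)) = fun c => v ((), c) := by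
  have h : ((Bun.triv X Unit).tensor V).P x =
      kroneckerMap (· * ·) (1 : Matrix Unit Unit ℂ) (V.P x) := rfl
  rw [h]
  constructor
  · intro h1
    funext c
    have := congrFun h1 ((), c)
    rwa [kron_one_mulVec] at this
  · intro h1
    funext ⟨u, c⟩
    rw [kron_one_mulVec]
    exact congrFun h1 c

/-- tensoring with the trivial line -/
def unitHomeo (V : Bun X ι) : ((Bun.triv X Unit).tensor V).E ≃ₜ V.E where
  toFun P := V.mkE (Bun.base P) (fun c => Bun.vec P ((), c))
    ((unitTensor_fixed V _ _).1 (Bun.P_vec P))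
  invFun P := ((Bun.triv X Unit).tensor V).mkE (Bun.base P) (fun c => Bun.vec P c.2)
    ((unitTensor_fixed V _ _).2 (Bun.P_vec P))
  left_inv P := Bun.E_ext rfl (by funext ⟨u, c⟩; rfl)
  right_inv P := Bun.E_ext rfl rfl
  continuous_toFun := by
    refine Bun.continuous_mkE Bun.continuous_base (continuous_pi fun c => ?_) _
    exact (continuous_apply ((), c)).comp Bun.continuous_vec
  continuous_invFun := by
    refine Bun.continuous_mkE Bun.continuous_base (continuous_pi fun c => ?_) _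
    exact (continuous_apply c.2).comp Bun.continuous_vec

end unit

/-- `E_κ` for `W = Unit` is the total space of `rhoGr` -/
def rhoIso (p : ℕ) (κ : Type) [Fintype κ] : (vGr p κ Unit).tot ≅ (rhoGr p κ).tot :=
  ofHomeo (X := (vGr p κ Unit).tot) (Y := (rhoGr p κ).tot) (unitHomeo (rhoGr p κ))

/-- the total space of `rhoGr` as a finite cell space -/
abbrev rhoF (p : ℕ) (κ : Type) [Fintype κ] : FCat := ⟨(rhoGr p κ).tot, Cell.fc_tot _⟩

/-- the attaching map for `rhoGr` -/
def covRho (κ : Type) [Fintype κ] : Fib (Fin p) Unit ⊗ LC.of (SS κ) ⟶ (rhoGr p κ).tot :=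
  covG hp κ Unit ≫ (rhoIso p κ).hom

/-- the inclusion for `rhoGr` -/
def incRho (e : κ ⊕ Unit ≃ κ') : (rhoGr p κ).tot ⟶ (rhoGr p κ').tot :=
  (rhoIso p κ).inv ≫ incG e hp Unit ≫ (rhoIso p κ').hom

/-- the fibre for `rhoGr` -/
def fibRho (x : SS κ) : Fib (Fin p) Unit ⟶ (rhoGr p κ).tot :=
  fibG hp Unit x ≫ (rhoIso p κ).hom

theorem fibRho_incRho (e : κ ⊕ Unit ≃ κ') (x : SS κ) :
    fibRho hp x ≫ incRho hp e = fibRho hp (incS e x) := by
  rw [fibRho, incRho, Category.assoc, Iso.hom_inv_id_assoc, ← Category.assoc, fibG_incG, fibRho]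

section T

variable {T : Type u} [Category.{v} T] [Preadditive T] [HasZeroObject T]
    [HasShift T ℤ] [∀ n : ℤ, (shiftFunctor T n).Additive] [Pretriangulated T]
    [MonoidalCategory T] [SymmetricCategory T] [TensorTriangulated T] (F : SpaceFunctor T)

/-- **The extension criterion for `rhoGr`.** -/
theorem exists_ext_incRho (e : κ ⊕ Unit ≃ κ') {M : T} (th : F.S.obj (rhoF p κ) ⟶ M)
    (h : F.S.map (connF (FibF p Unit)) ≫ (F.suspIso (FibF p Unit ⊗ SSF κ)).hom ≫
      (F.S.map (FCat.hom (covRho hp κ) : FibF p Unit ⊗ SSF κ ⟶ rhoF p κ) ≫ th)⟦(1 : ℤ)⟧' = 0) :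
    ∃ th' : F.S.obj (rhoF p κ') ⟶ M,
      F.S.map (FCat.hom (incRho hp e) : rhoF p κ ⟶ rhoF p κ') ≫ th' = th := by
  let a : GF p κ Unit ⟶ rhoF p κ := FCat.hom (rhoIso p κ).hom
  let a' : rhoF p κ ⟶ GF p κ Unit := FCat.hom (rhoIso p κ).inv
  let b' : rhoF p κ' ⟶ GF p κ' Unit := FCat.hom (rhoIso p κ').inv
  obtain ⟨t, ht⟩ := exists_ext_incG F hp e (F.S.map a ≫ th) (by
    rw [← Category.assoc (F.S.map (covGF hp κ Unit)), ← Functor.map_comp]
    exact h)
  refine ⟨F.S.map b' ≫ t, ?_⟩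
  have h1 : (FCat.hom (incRho hp e) : rhoF p κ ⟶ rhoF p κ') ≫ b' = a' ≫ incGF hp e Unit := by
    ext1
    change incRho hp e ≫ (rhoIso p κ').inv = (rhoIso p κ).inv ≫ incG e hp Unit
    rw [incRho, Category.assoc, Category.assoc, Iso.hom_inv_id, Category.comp_id]
  have h2 : a' ≫ a = 𝟙 (rhoF p κ) := by
    ext1
    exact (rhoIso p κ).inv_hom_id
  rw [← Functor.map_comp_assoc, h1, Functor.map_comp, Category.assoc, ht, ← Functor.map_comp_assoc,
    h2, CategoryTheory.Functor.map_id, Category.id_comp]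

end T

end Vale.Agent.P257.H163
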