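import Vale.Agent.P257.H163.Fin
import Vale.Agent.P257.H104.Fams
import Vale.Agent.P257.H763.NoThom

/-!
# P257: the covering of a Thom class is not constant

* `exists_ext_of_eq`: if `cov ≫ th` is the constant map, then `th` extends to the next
  projective space;
* `cov_th_ne`: for `n + 1 = p` and `th` the unit on the fibre, `cov ≫ th` is not constant.
-/

open Matrix Filter Topology CategoryTheory MonoidalCategory OnePoint Limits Pretriangulated
open Functor.LaxMonoidal Functor.OplaxMonoidal Functor.Monoidal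
open Vale.Agent.P251 Vale.Agent.P251.G Vale.Agent.P251.G.LC Vale.Agent.P251.I
open Vale.Agent.P251.T Vale.Agent.P251.M Vale.Agent.P251.S Vale.Agent.P257.H104

universe v u

noncomputable section

set_option linter.unusedSectionVars false

namespace Vale.Agent.P257.H163

variable {T : Type u} [Category.{v} T] [Preadditive T] [HasZeroObject T]
    [HasShift T ℤ] [∀ n : ℤ, (shiftFunctor T n).Additive] [Pretriangulated T]
    [MonoidalCategory T] [SymmetricCategory T] [TensorTriangulated T] (F : SpaceFunctor T)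

section factor

variable {κ κ' : Type} [Fintype κ] [Fintype κ'] [DecidableEq κ] [DecidableEq κ']
variable {p : ℕ} (hp : p ≠ 0) {W : Type} [Fintype W] [DecidableEq W]

/-- Extension, if the composite with the attaching map factors over a map which extends over the
ball. -/
theorem exists_ext_of_factor (e : κ ⊕ Unit ≃ κ') {M : T} (th : F.S.obj (GF p κ W) ⟶ M) {X : FCat}
    (q : FibF p W ⊗ SSF κ ⟶ X) (r : FibF p W ⊗ DDF κ ⟶ X)
    (hqr : (FCat.hom (Fib (Fin p) W ◁ sphD κ) : FibF p W ⊗ SSF κ ⟶ FibF p W ⊗ DDF κ) ≫ r = q)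
    (t : F.S.obj X ⟶ M) (h : F.S.map (covGF hp κ W) ≫ th = F.S.map q ≫ t) :
    ∃ th' : F.S.obj (GF p κ' W) ⟶ M, F.S.map (incGF hp e W) ≫ th' = th := by
  refine exists_ext_pushout F
    (i := (FCat.hom (Fib (Fin p) W ◁ sphD κ) : FibF p W ⊗ SSF κ ⟶ FibF p W ⊗ DDF κ))
    (f := covGF hp κ W)
    (g := (FCat.hom (cellG e hp W) : FibF p W ⊗ DDF κ ⟶ GF p κ' W)) (j := incGF hp e W)
    cofib_sphDFib (isPushout_G e hp) (F.S.map r ≫ t) th ?_
  rw [← Category.assoc, ← Functor.map_comp, hqr, h]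

end factor

section const

variable {p : ℕ} (hp : p ≠ 0) {W : Type} [Fintype W] [DecidableEq W] {n : ℕ}
variable {C : T} {u : 𝟙_ T ⟶ C}

variable (n W) in
/-- the attaching map -/
def covSF : FibF p W ⊗ SF hp n ⟶ GF p (Fin n) W := FCat.hom (covG hp (Fin n) W)

theorem covSF_eq : covSF hp W n = (β_ (FibF p W) (SF hp n)).hom ≫ covLF hp n W ≫
    (FCat.hom (eToGr p hp W n).thom : eF hp n W ⟶ GF p (Fin n) W) := by
  ext1
  change covG hp (Fin n) W = (β_ (Fib (Fin p) W) (LC.of (LF p hp n).S)).hom ≫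
    cov (LF p hp n) W ≫ (eToGr p hp W n).thom
  rw [← covR_eToGr, covR, Category.assoc]

theorem map_braid_δ (X Y : FCat) : F.S.map (β_ X Y).hom ≫ δ F.S Y X =
    δ F.S X Y ≫ (β_ (F.S.obj X) (F.S.obj Y)).hom := by
  have h := Functor.LaxBraided.braided (F := F.S) X Y
  calc F.S.map (β_ X Y).hom ≫ δ F.S Y X
      = δ F.S X Y ≫ (μ F.S X Y ≫ F.S.map (β_ X Y).hom) ≫ δ F.S Y X := by
        rw [Category.assoc, δ_μ_assoc]
    _ = _ := by rw [h, Category.assoc, μ_δ, Category.comp_id]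

theorem covSF_th (th : F.S.obj (GF p (Fin n) W) ⟶ XT F p W ⊗ C)
    (h : covLT hp F n W ≫ F.S.map (FCat.hom (eToGr p hp W n).thom :
      eF hp n W ⟶ GF p (Fin n) W) ≫ th =
      (β_ (YT hp F n) (XT F p W)).hom ≫ (XT F p W ◁ (prT hp F n ≫ u))) :
    F.S.map (covSF hp W n) ≫ th = F.S.map (FibF p W ◁ prFm hp n) ≫
      δ F.S (FibF p W) (𝟙_ FCat) ≫ (XT F p W ◁ (η F.S ≫ u)) := by
  have h2 : F.S.map (covLF hp n W) = δ F.S _ _ ≫ covLT hp F n W := by
    rw [covLT, δ_μ_assoc]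
  rw [covSF_eq, Functor.map_comp, Functor.map_comp, h2]
  simp only [Category.assoc]
  rw [h, ← Category.assoc, map_braid_δ, Category.assoc, SymmetricCategory.symmetry_assoc, prT,
    ← δ_natural_right_assoc, ← MonoidalCategory.whiskerLeft_comp, Category.assoc]

/-- the projection of the ball to the point -/
def ddFm (κ : Type) [Fintype κ] : DDF κ ⟶ 𝟙_ FCat := FCat.hom (ddToPt κ)

theorem sphD_ddFm : (FCat.hom (Fib (Fin p) W ◁ sphD (Fin n)) :
      FibF p W ⊗ SSF (Fin n) ⟶ FibF p W ⊗ DDF (Fin n)) ≫ (FibF p W ◁ ddFm (Fin n)) =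
    FibF p W ◁ prFm hp n := by
  ext1
  change (Fib (Fin p) W ◁ sphD (Fin n)) ≫ (Fib (Fin p) W ◁ ddToPt (Fin n)) =
    Fib (Fin p) W ◁ (prFm hp n).hom
  rw [← MonoidalCategory.whiskerLeft_comp]
  congr 1
  apply hom_ext
  intro x
  rfl

/-- If the covering of `th` is constant, then `th` extends. -/
theorem exists_ext_of_eq {κ' : Type} [Fintype κ'] [DecidableEq κ'] (e : Fin n ⊕ Unit ≃ κ')
    (th : F.S.obj (GF p (Fin n) W) ⟶ XT F p W ⊗ C)
    (h : covLT hp F n W ≫ F.S.map (FCat.hom (eToGr p hp W n).thom :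
      eF hp n W ⟶ GF p (Fin n) W) ≫ th =
      (β_ (YT hp F n) (XT F p W)).hom ≫ (XT F p W ◁ (prT hp F n ≫ u))) :
    ∃ th' : F.S.obj (GF p κ' W) ⟶ XT F p W ⊗ C, F.S.map (incGF hp e W) ≫ th' = th :=
  exists_ext_of_factor F hp e th _ _ (sphD_ddFm hp) _ (covSF_th F hp th h)

end const

section main

variable [HasCoproducts.{0} T] {F}
  (e : F.S.obj CCF ≅ (stdEven T).L)
  (D : MUData T) (o : Vale.Agent.P251.Q.Orientation (thK e D.R))
  (hev : ∀ s, D.ev s = amEv e D.R o s)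
  {p : ℕ} [hpp : Fact p.Prime] (hp : p ≠ 2) {C : T} {i : 𝟙_ T ⟶ C}
  {δ : C ⟶ (𝟙_ T)⟦(1 : ℤ)⟧} (hC : Triangle.mk ((p : ℤ) • 𝟙 (𝟙_ T)) i δ ∈ distTriang T)
  (hp0 : p ≠ 0) {n : ℕ} (hn : 0 < n) (hnp : n + 1 = p)

include hev hp hC hnp

/-- **The covering of a Thom class is not constant.** -/
theorem cov_th_ne (th : F.S.obj (GF p (Fin n) Unit) ⟶ XT F p Unit ⊗ C)
    (hth : F.S.map (FCat.hom (fibGr p hp0 Unit (ptF p hp0 hn)) :
      FibF p Unit ⟶ GF p (Fin n) Unit) ≫ th = (ρ_ _).inv ≫ (XT F p Unit ◁ i)) :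
    covLT hp0 F n Unit ≫ F.S.map (FCat.hom (eToGr p hp0 Unit n).thom :
      eF hp0 n Unit ⟶ GF p (Fin n) Unit) ≫ th ≠
      (β_ (YT hp0 F n) (XT F p Unit)).hom ≫ (XT F p Unit ◁ (prT hp0 F n ≫ i)) := by
  intro h
  let e' : Fin n ⊕ Unit ≃ Fin p := (eFin n).trans (finCongr hnp)
  obtain ⟨th', hth'⟩ := exists_ext_of_eq F hp0 e' th h
  let x : SS (Fin n) := ptF p hp0 hn
  let κ : F.S.obj (FibF p Unit) ≅ (stdEven T).S p := eX F p Unit ≪≫
    eqToIso (by rw [Fintype.card_unit, one_mul]; push_cast; rfl) ≪≫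
      ((stdEven T).sphIso (Iso.refl _) (p : ℤ)).symm
  let j : FibF p Unit ⟶ H763.rhoF p (Fin p) := FCat.hom (fibRho hp0 (incS e' x))
  let a : H763.rhoF p (Fin p) ⟶ GF p (Fin p) Unit := FCat.hom (rhoIso p (Fin p)).inv
  refine H763.noThom e D o hev hp hC κ j (incS e' x).line ?_ (F.S.map a ≫ th') ?_
  · intro z
    exact ⟨unitHomeo (rhoGr p (Fin p)) (qG hp0 (z, incS e' x)), rfl, rfl⟩
  · have h1 : j ≫ a = (FCat.hom (fibGr p hp0 Unit (ptF p hp0 hn)) :
        FibF p Unit ⟶ GF p (Fin n) Unit) ≫ incGF hp0 e' Unit := by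
      ext1
      change fibRho hp0 (incS e' x) ≫ (rhoIso p (Fin p)).inv =
        fibGr p hp0 Unit (ptF p hp0 hn) ≫ incG e' hp0 Unit
      rw [fibRho, Category.assoc, Iso.hom_inv_id, Category.comp_id, fibGr_eq_fibG]
      exact (fibG_incG hp0 e' x).symm
    rw [← Functor.map_comp_assoc, h1, Functor.map_comp, Category.assoc, hth', hth]
    rfl

/-- **Existence of a Thom class whose covering is not constant.** -/
theorem exists_theta_ne [IsTriangulated T] (c : H319.Coef C i (p : ℤ) (2 * (n : ℤ) - 1)) :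
    ∃ θ : ET hp0 F n Unit ⟶ XT F p Unit ⊗ C,
      fibT hp0 hn F Unit ≫ θ = H319.un i (XT F p Unit) ∧
      covLT hp0 F n Unit ≫ θ ≠
        (β_ (YT hp0 F n) (XT F p Unit)).hom ≫ (XT F p Unit ◁ (prT hp0 F n ≫ i)) := by
  obtain ⟨th, hth⟩ := exists_theta hp0 (W := Unit) F (C := C) hn
    (fun j h1 h2 => c.van j h1 (by omega)) (H319.un i (XT F p Unit))
  refine ⟨F.S.map (FCat.hom (eToGr p hp0 Unit n).thom : eF hp0 n Unit ⟶ GF p (Fin n) Unit) ≫ th,
    ?_, cov_th_ne e D o hev hp hC hp0 hn hnp th hth⟩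
  rw [fibT, ← Functor.map_comp_assoc]
  exact hth

end main

end Vale.Agent.P257.H163
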