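import Vale.Agent.P257.H163.Toda
import Vale.Agent.P257.Main.Glue

/-!
# P257: the geometric input of the main theorem
-/

open CategoryTheory MonoidalCategory Limits Pretriangulated

universe v u

namespace Vale.Agent.P257.H163

/-- **The geometric input.** -/
theorem todaInput {p : ℕ} (hp : p.Prime) (hp2 : p ≠ 2) : Main.TodaInput.{v, u} p := by
  intro T _ _ _ _ _ _ _ _ _ _ _ _ _ _ F D _ _ U
  have : Fact p.Prime := ⟨hp⟩
  obtain ⟨C, iC, δ, hC⟩ := distinguished_cocone_triangle ((p : ℤ) • 𝟙 (𝟙_ T))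
  exact todaRel F D U hp2 hC

end Vale.Agent.P257.H163
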