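import Vale.Agent.P257.H163.Push
import Vale.Agent.P251.G.Polar

/-!
# P257: the collapse `ℂ^κ ⟶ S(ℂ^κ) ⊗ ℝ` of the origin and its distinguished triangle
-/

open Matrix Filter Topology CategoryTheory MonoidalCategory OnePoint Limits Pretriangulated
open Vale.Agent.P251 Vale.Agent.P251.G Vale.Agent.P251.G.LC Vale.Agent.P251.I
open Vale.Agent.P251.T Vale.Agent.P257.H104

universe v u

noncomputable section

set_option linter.unusedSectionVars false

namespace Vale.Agent.P257.H163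

variable (κ : Type) [Fintype κ] [DecidableEq κ]

/-- the trivial bundle over the point -/
abbrev pb : Bun Unit κ := Bun.triv Unit κ

/-- the unit sphere -/
def sphHomeo : (pb κ).Sph ≃ₜ SS κ := by
  let f : (pb κ).Sph → SS κ := fun s => ⟨s.vec, s.nsq_vec⟩
  have hf : Continuous f := Bun.Sph.continuous_vec.subtype_mk _
  have hb : Function.Bijective f := by
    constructor
    · intro s t h
      exact Bun.Sph.ext (Subsingleton.elim _ _) (congrArg Subtype.val h)
    · intro x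
      refine ⟨(pb κ).mkSph () x.1 ?_ x.2, rfl⟩
      change (1 : Matrix κ κ ℂ) *ᵥ x.1 = x.1
      rw [one_mulVec]
  exact hf.homeoOfEquivCompactToT2 (f := Equiv.ofBijective f hb)

theorem sphHomeo_v (s : (pb κ).Sph) : (sphHomeo κ s).v = s.vec := rfl

/-- the unit sphere -/
def eSph : (pb κ).sph ≅ LC.of (SS κ) := ofHomeo (X := (pb κ).sph) (Y := LC.of (SS κ)) (sphHomeo κ)

/-- the total space -/
def eTot : (pb κ).tot ≅ LC.of (κ → ℂ) :=
  ofHomeo (X := (pb κ).tot) (Y := LC.of (κ → ℂ))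
    ((Bun.trivHomeo Unit κ).trans (Homeomorph.punitProd (κ → ℂ)))

/-- the collapse of the origin, `z ↦ (z / |z|, log |z|)` -/
def collO : LC.of (κ → ℂ) ⟶ LC.of (SS κ) ⊗ RR :=
  (eTot κ).inv ≫ (pb κ).polarConn ≫ (eSph κ).hom ▷ RR

/-- polar coordinates -/
def polO : LC.of (SS κ) ⊗ HH ⟶ LC.of (κ → ℂ) :=
  (eSph κ).inv ▷ HH ≫ (pb κ).polarHom ≫ (eTot κ).hom

/-- the origin -/
def zeroO : LC.of Unit ⟶ LC.of (κ → ℂ) := (pb κ).zeroHom ≫ (eTot κ).hom

/-- the projection to the point -/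
def toPt : LC.of (SS κ) ⟶ LC.of Unit := (eSph κ).inv ≫ (pb κ).sphHom

theorem isPushout_O : IsPushout (coneBase (LC.of (SS κ))) (toPt κ) (polO κ) (zeroO κ) := by
  refine IsPushout.of_iso (pb κ).isPushout_polar (eSph κ) (whiskerRightIso (eSph κ) HH)
    (Iso.refl _) (eTot κ) ?_ ?_ ?_ ?_
  · exact coneBase_naturality (eSph κ).hom
  · rw [toPt, Iso.hom_inv_id_assoc, Iso.refl_hom, Category.comp_id]
  · rw [polO, whiskerRightIso_hom, ← comp_whiskerRight_assoc, Iso.hom_inv_id, id_whiskerRight,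
      Category.id_comp]
  · rw [zeroO, Iso.refl_hom, Category.id_comp]

theorem zeroO_collO : zeroO κ ≫ collO κ = 0 := by
  rw [zeroO, collO, Category.assoc, Iso.hom_inv_id_assoc, Bun.zeroHom_conn_assoc, zero_comp]

theorem polO_collO : polO κ ≫ collO κ = LC.of (SS κ) ◁ collHH := by
  rw [polO, collO, Category.assoc, Category.assoc, Iso.hom_inv_id_assoc,
    Bun.polarHom_conn_assoc, whisker_exchange, ← comp_whiskerRight_assoc, Iso.inv_hom_id,
    id_whiskerRight, Category.id_comp]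

variable {κ}

theorem coneBase_tensor (X Y : LC) :
    (X ◁ coneBase Y) ≫ (α_ X Y HH).inv = coneBase (X ⊗ Y) := by
  apply tensor_ext
  intro x y
  rfl

theorem isPushout_OX (X : LC) : IsPushout (coneBase (X ⊗ LC.of (SS κ))) (X ◁ toPt κ)
    ((α_ X (LC.of (SS κ)) HH).hom ≫ X ◁ polO κ) (X ◁ zeroO κ) := by
  refine IsPushout.of_iso (isPushout_whiskerLeft X (injective_coneBase _) (isPushout_O κ))
    (Iso.refl _) (α_ _ _ _).symm (Iso.refl _) (Iso.refl _) ?_ ?_ ?_ ?_
  · rw [Iso.refl_hom, Category.id_comp, Iso.symm_hom, coneBase_tensor]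
  · exact (Category.comp_id _).trans (Category.id_comp _).symm
  · rw [Iso.refl_hom, Category.comp_id, Iso.symm_hom, Iso.inv_hom_id_assoc]
  · exact (Category.comp_id _).trans (Category.id_comp _).symm

/-- the connecting morphism -/
def connO (X : LC) : X ⊗ LC.of (κ → ℂ) ⟶ (X ⊗ LC.of (SS κ)) ⊗ RR :=
  (X ◁ collO κ) ≫ (α_ X (LC.of (SS κ)) RR).inv

theorem zeroO_connO (X : LC) : (X ◁ zeroO κ) ≫ connO X = 0 := by
  rw [connO, ← whiskerLeft_comp_assoc, zeroO_collO]
  have h : X ◁ (0 : LC.of Unit ⟶ LC.of (SS κ) ⊗ RR) = 0 := by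
    apply tensor_ext
    intro x y
    rfl
  rw [h, zero_comp]

theorem polO_connO (X : LC) : ((α_ X (LC.of (SS κ)) HH).hom ≫ X ◁ polO κ) ≫ connO X =
    (X ⊗ LC.of (SS κ)) ◁ collHH := by
  rw [connO, Category.assoc, ← whiskerLeft_comp_assoc, polO_collO, MonoidalCategory.tensor_whiskerLeft]

/-! ### The triangle -/

section T

variable {T : Type u} [Category.{v} T] [Preadditive T] [HasZeroObject T]
    [HasShift T ℤ] [∀ n : ℤ, (shiftFunctor T n).Additive] [Pretriangulated T]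
    [MonoidalCategory T] [SymmetricCategory T] [TensorTriangulated T] (F : SpaceFunctor T)

variable (κ) in
/-- the sphere as a finite cell space -/
abbrev SSF : FCat := ⟨LC.of (SS κ), Cell.fc_of_hasChain (SS κ)⟩

variable (κ) in
/-- `ℂ^κ` as a finite cell space -/
abbrev CF : FCat := ⟨LC.of (κ → ℂ), Cell.fc_cvec κ⟩

/-- the point as a finite cell space -/
abbrev ptFC : FCat := ⟨LC.of Unit, FC.of_unique _⟩

/-- the connecting morphism, in `FCat` -/
abbrev connF (X : FCat) : X ⊗ CF κ ⟶ (X ⊗ SSF κ) ⊗ RRF :=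
  FCat.hom (connO (κ := κ) X.obj)

/-- The distinguished triangle of the collapse of the origin. -/
theorem connF_distinguished (X : FCat) :
    Triangle.mk (F.S.map (FCat.hom (X.obj ◁ toPt κ) : X ⊗ SSF κ ⟶ X ⊗ ptFC))
      (F.S.map (FCat.hom (X.obj ◁ zeroO κ) : X ⊗ ptFC ⟶ X ⊗ CF κ))
      (F.S.map (connF X) ≫ (F.suspIso (X ⊗ SSF κ)).hom) ∈ distTriang T := by
  have h := F.cone (FCat.hom (X.obj ◁ toPt κ) : X ⊗ SSF κ ⟶ X ⊗ ptFC)
    (FCat.hom (X.obj ◁ zeroO κ) : X ⊗ ptFC ⟶ X ⊗ CF κ)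
    ((α_ X.obj (LC.of (SS κ)) HH).hom ≫ X.obj ◁ polO κ) (isPushout_OX X.obj) (connF X)
    (zeroO_connO X.obj) (polO_connO X.obj)
  exact h

end T

end Vale.Agent.P257.H163
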