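import Vale.Agent.P257.H163.Disc
import Vale.Agent.P251.I.CofTriangle

/-!
# P257: the total space over `ℂP(κ')` is obtained from the one over `ℂP(κ)` by attaching a cell
-/

open Matrix Filter Topology CategoryTheory MonoidalCategory OnePoint
open Vale.Agent.P251.G Vale.Agent.P251.G.LC Vale.Agent.P257.H104

noncomputable section

set_option linter.unusedSectionVars false

namespace Vale.Agent.P257.H163

variable {κ κ' : Type} [Fintype κ] [Fintype κ'] [DecidableEq κ] [DecidableEq κ']
  (e : κ ⊕ Unit ≃ κ')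
variable {p : ℕ} (hp : p ≠ 0) {W : Type} [Fintype W] [DecidableEq W]

/-- the characteristic map of the cell -/
def cellG (W : Type) [Fintype W] [DecidableEq W] :
    Fib (Fin p) W ⊗ LC.of (DD κ) ⟶ (vGr p κ' W).tot :=
  (Fib (Fin p) W ◁ hemi e) ≫ covG hp κ' W

theorem app_cellG_coe (w : Fin p → W → ℂ) (z : DD κ) :
    app (cellG e hp W) (OnePoint.some (w, z)) = OnePoint.some (qG hp (w, hemiFun e z)) := rfl

theorem sphD_cellG : (Fib (Fin p) W ◁ sphD κ) ≫ cellG e hp W = covG hp κ W ≫ incG e hp W := by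
  apply hom_ext
  rintro ⟨w, x⟩
  change OnePoint.some (qG hp (w, hemiFun e (sphDFun x))) =
    OnePoint.some ((incB e hp W).toFun (qG hp (w, x)))
  rw [hemiFun_sphD, incB_qG]

theorem mem_range_sphD (w : Fin p → W → ℂ) (z : DD κ) (h : nsq z.v = 1) :
    (OnePoint.some (w, z) : OnePoint ((Fin p → W → ℂ) × DD κ)) ∈
      Set.range (app (Fib (Fin p) W ◁ sphD κ)) :=
  ⟨OnePoint.some (w, (⟨z.v, h⟩ : SS κ)), rfl⟩

/-- the points of the image of `incG` -/
theorem mem_range_incG (w : Fin p → W → ℂ) (x : SS κ') (z : κ → ℂ) (c : ℂ)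
    (hx : x.v = ext e z c) :
    (OnePoint.some (qG hp (w, x)) : OnePoint (vGr p κ' W).E) ∈
      Set.range (app (incG e hp W (κ := κ))) ↔ c = 0 := by
  constructor
  · rintro ⟨P, hP⟩
    induction P using OnePoint.rec with
    | infty =>
      rw [app_infty] at hP
      exact absurd hP (OnePoint.infty_ne_coe _)
    | coe P =>
      rw [app_incG_coe] at hP
      obtain ⟨⟨w', y⟩, rfl⟩ := surjective_qG hp P
      rw [incB_qG] at hP
      have h1 : (incS e y).line = x.line := congrArg Bun.base (OnePoint.coe_injective hP)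
      rw [SS.line_eq_iff] at h1
      obtain ⟨a, -, ha⟩ := h1
      rw [hx, incS_v, ← ext_smul, mul_zero] at ha
      exact (ext_inj e ha).2
  · rintro rfl
    have hz : nsq z = 1 := by
      have := x.nsq_v
      rw [hx, nsq_ext, map_zero, add_zero] at this
      exact this
    obtain ⟨y, rfl⟩ : ∃ y : SS κ, y.v = z := ⟨⟨z, hz⟩, rfl⟩
    refine ⟨OnePoint.some (qG hp (w, y)), ?_⟩
    rw [app_incG_coe, incB_qG]
    have h2 : incS e y = x := SS.ext hx.symm
    rw [h2]

theorem notMem_range_sphD {b : OnePoint ((Fin p → W → ℂ) × DD κ)}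
    (hb : b ∉ Set.range (app (Fib (Fin p) W ◁ sphD κ))) :
    ∃ (w : Fin p → W → ℂ) (z : DD κ), b = OnePoint.some (w, z) ∧ nsq z.v < 1 := by
  induction b using OnePoint.rec with
  | infty => exact absurd (infty_mem_range _) hb
  | coe b =>
    obtain ⟨w, z⟩ := b
    refine ⟨w, z, rfl, lt_of_le_of_ne z.nsq_v fun h => hb (mem_range_sphD w z h)⟩

/-- **The attaching square.** -/
theorem isPushout_G : IsPushout (Fib (Fin p) W ◁ sphD κ) (covG hp κ W) (cellG e hp W)
    (incG e hp W) := by
  refine isPushout_of (sphD_cellG e hp) (injective_incG e hp) ⟨?_, ?_, ?_⟩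
  · intro b hb hb'
    obtain ⟨w, z, rfl, hz⟩ := notMem_range_sphD hb
    rw [app_cellG_coe, mem_range_incG e hp w (hemiFun e z) z.v (hgt z.v) rfl,
      Complex.ofReal_eq_zero] at hb'
    exact (hgt_pos hz).ne' hb'
  · intro b hb b' hb' h
    obtain ⟨w, z, rfl, hz⟩ := notMem_range_sphD hb
    obtain ⟨w', z', rfl, hz'⟩ := notMem_range_sphD hb'
    rw [app_cellG_coe, app_cellG_coe] at h
    have h0 := OnePoint.coe_injective h
    have h1 : (hemiFun e z).line = (hemiFun e z').line := congrArg Bun.base h0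
    have h2 : powVec (frameΦ p (hemiFun e z).v) w = powVec (frameΦ p (hemiFun e z').v) w' :=
      congrArg Bun.vec h0
    rw [SS.line_eq_iff] at h1
    obtain ⟨a, ha, haz⟩ := h1
    rw [hemiFun_v, hemiFun_v, ← ext_smul] at haz
    obtain ⟨h3, h4⟩ := ext_inj e haz
    have hs1 := hgt_pos hz
    have han : ‖a‖ = 1 := by
      rw [Complex.normSq_eq_norm_sq] at ha
      nlinarith [norm_nonneg a]
    have hs2 : hgt z'.v = hgt z.v := by
      have := congrArg norm h4
      rw [norm_mul, han, one_mul, Complex.norm_real, Complex.norm_real, Real.norm_eq_abs,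
        Real.norm_eq_abs, abs_of_nonneg (hgt_nonneg _), abs_of_nonneg (hgt_nonneg _)] at this
      exact this
    have ha1 : a = 1 := by
      rw [hs2] at h4
      have h5 : ((hgt z.v : ℝ) : ℂ) ≠ 0 := Complex.ofReal_ne_zero.2 hs1.ne'
      have h6 : a * ((hgt z.v : ℝ) : ℂ) = 1 * ((hgt z.v : ℝ) : ℂ) := by rw [one_mul, ← h4]
      exact mul_right_cancel₀ h5 h6
    rw [ha1, one_smul] at h3
    have h7 : z' = z := DD.ext h3
    subst h7
    rw [powVec_injective (frameΦ_isom hp (hemiFun e z').nsq_v) h2]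
  · intro d hd
    induction d using OnePoint.rec with
    | infty => exact absurd (infty_mem_range _) hd
    | coe P =>
      obtain ⟨⟨w, x⟩, rfl⟩ := surjective_qG hp P
      obtain ⟨y, c, hx⟩ := exists_ext e x.v
      have hc : c ≠ 0 := fun h => hd ((mem_range_incG e hp w x y c hx).2 h)
      have hpos : 0 < ‖c‖ := norm_pos_iff.2 hc
      have hx1 : nsq y + Complex.normSq c = 1 := by
        have := x.nsq_v
        rwa [hx, nsq_ext] at this
      have ha1 : Complex.normSq ((‖c‖ : ℂ) / c) = 1 := by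
        rw [map_div₀, Complex.normSq_ofReal, Complex.normSq_eq_norm_sq, ← sq]
        exact div_self (pow_ne_zero 2 hpos.ne')
      have hac : ((‖c‖ : ℂ) / c) * c = ‖c‖ := div_mul_cancel₀ _ hc
      have hny : nsq (((‖c‖ : ℂ) / c) • y) = 1 - ‖c‖ ^ 2 := by
        rw [nsq_smul, ha1, one_mul]
        rw [Complex.normSq_eq_norm_sq] at hx1
        linarith
      have hlt : nsq (((‖c‖ : ℂ) / c) • y) < 1 := by
        rw [hny]
        nlinarith [mul_pos hpos hpos]
      have hh : hgt (((‖c‖ : ℂ) / c) • y) = ‖c‖ := by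
        rw [hgt, hny, sub_sub_cancel, Real.sqrt_sq hpos.le]
      let z : DD κ := ⟨((‖c‖ : ℂ) / c) • y, hlt.le⟩
      have hzv : (hemiFun e z).v = ((‖c‖ : ℂ) / c) • x.v := by
        rw [hemiFun_v, hx, ← ext_smul, hac]
        change ext e _ ((hgt (((‖c‖ : ℂ) / c) • y) : ℝ) : ℂ) = _
        rw [hh]
        rfl
      have hline : (hemiFun e z).line = x.line :=
        (SS.line_eq_iff.2 ⟨_, ha1, hzv⟩).symm
      obtain ⟨w', hw'⟩ := exists_qG hp (qG hp (w, x)) (hemiFun e z) hline
      refine ⟨OnePoint.some (w', z), ?_, ?_⟩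
      · rintro ⟨a, ha⟩
        induction a using OnePoint.rec with
        | infty =>
          rw [app_infty] at ha
          exact absurd ha (OnePoint.infty_ne_coe _)
        | coe a =>
          obtain ⟨w'', x''⟩ := a
          have h8 : (w'', sphDFun x'') = (w', z) := OnePoint.coe_injective ha
          have h9 : sphDFun x'' = z := (Prod.ext_iff.1 h8).2
          have h10 : nsq z.v = 1 := by rw [← h9]; exact x''.nsq_v
          exact absurd h10 hlt.ne
      · rw [app_cellG_coe, hw']

theorem cofib_sphDFib : Cofib (Fib (Fin p) W ◁ sphD κ) := cofib_sphD.whiskerLeft' _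

theorem cofib_incG : Cofib (incG e hp W (κ := κ)) := 
  Cofib.pushout cofib_sphDFib (isPushout_G e hp)

end Vale.Agent.P257.H163
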