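import Vale.Agent.P257.H163.Glue
import Vale.Agent.P257.H319.TSys
import Vale.Agent.P251.M.LineIso

/-!
# P257: the Toda relation

`todaRel`: the Toda relation `α₁ β₁^p = 0 mod p` for every `D`, `U`.
-/

open CategoryTheory MonoidalCategory Limits Pretriangulated
open Vale.Agent.P251 Vale.Agent.P251.G Vale.Agent.P251.G.LC Vale.Agent.P251.I Vale.Agent.P251.T
open Vale.Agent.P251.M Vale.Agent.P251.S Vale.Agent.P251.F Vale.Agent.P251.B
open Vale.Agent.P257.H762 Vale.Agent.P257.H319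

universe v u

namespace Vale.Agent.P257.H163

variable {T : Type u} [Category.{v} T] [Preadditive T] [HasZeroObject T]
    [HasShift T ℤ] [∀ n : ℤ, (shiftFunctor T n).Additive] [Pretriangulated T] [IsTriangulated T]
    [MonoidalCategory T] [SymmetricCategory T] [TensorTriangulated T] [MonoidalClosed T]
    [HasCoproducts.{0} T] [HasProducts.{0} T] [StableCat T]

/-- **The Toda relation.** -/
theorem todaRel (F : SpaceFunctor T) (D : MUData T) (U : UnitCof D.R) {p : ℕ}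
    [hpp : Fact p.Prime] (hp : p ≠ 2) {C : T} {i : 𝟙_ T ⟶ C} {δ : C ⟶ (𝟙_ T)⟦(1 : ℤ)⟧}
    (hC : Triangle.mk ((p : ℤ) • 𝟙 (𝟙_ T)) i δ ∈ distTriang T) : H545.TodaRel p D U := by
  obtain ⟨D', o, -, hev⟩ := H709.exists_oriented F (lineIso F)
  have h2 : 2 ≤ p := hpp.out.two_le
  have hp0 : p ≠ 0 := by omega
  obtain ⟨n, hn⟩ : ∃ n, n + 1 = p := ⟨p - 1, by omega⟩
  have hn0 : 0 < n := by omega
  have hnp : (n : ℤ) = p - 1 := by omega
  obtain ⟨θ, hθ, hne⟩ := exists_theta_ne (lineIso F) D' o hev hp hC hp0 hn0 hn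
    (coefE D U hp hC hnp)
  exact todaRel_of_th F hp0 hn0 D U hp hC hnp θ hθ hne

end Vale.Agent.P257.H163
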